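import Mathlib

/-!
# P300, block A: the numerical part of Lemma A (LA-N)

Words are pairs `(L, j)`, `L : List ℕ`, `j : ℕ`.  `d1 = ∑ (i+1) + j + 1`, `d2 = ∑ c_i + 1` with
`c_i = 2` for `i ≤ 2` and `c_i = 3` for `i ≥ 3`.  For `s = 9331/10000` one has `s^10 > 1/2` and
`∑ over words s^(9 d1 + d2) < ∞`, so that `∑ over words (s^10)^(max d1 d2) < ∞`.
-/

namespace Vale.Agent.P300.LAN

open scoped ENNReal NNReal

/-! ### Sums over lists -/

theorem tsum_fin_prod (x : ℕ → ℝ≥0∞) (n : ℕ) :
    ∑' f : Fin n → ℕ, ∏ i, x (f i) = (∑' i, x i) ^ n := by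
  induction n with
  | zero =>
    rw [tsum_eq_single (fun i : Fin 0 => i.elim0) (fun f hf => (hf (Subsingleton.elim _ _)).elim)]
    simp
  | succ n ih =>
    rw [← (Fin.consEquiv (fun _ : Fin (n + 1) => ℕ)).tsum_eq]
    have h1 : ∀ p : ℕ × (Fin n → ℕ),
        (∏ i, x ((Fin.consEquiv (fun _ : Fin (n + 1) => ℕ)) p i)) = x p.1 * ∏ i, x (p.2 i) := by
      intro p
      rw [Fin.prod_univ_succ]
      rfl
    rw [tsum_congr h1, ENNReal.tsum_prod (f := fun (a : ℕ) (b : Fin n → ℕ) => x a * ∏ i, x (b i))]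
    simp only [ENNReal.tsum_mul_left, ih, ENNReal.tsum_mul_right]
    rw [pow_succ, mul_comm]

theorem tsum_list (x : ℕ → ℝ≥0∞) :
    ∑' L : List ℕ, (L.map x).prod = ∑' n : ℕ, (∑' i, x i) ^ n := by
  rw [← (List.equivSigmaTuple (α := ℕ)).symm.tsum_eq, ENNReal.tsum_sigma']
  refine tsum_congr fun n => ?_
  rw [← tsum_fin_prod]
  refine tsum_congr fun f => ?_
  have : (List.equivSigmaTuple (α := ℕ)).symm ⟨n, f⟩ = List.ofFn f := rfl
  rw [this, List.map_ofFn, List.prod_ofFn]
  rfl

/-- If `∑ x i < 1` then the products over words are summable. -/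
theorem summable_list (x : ℕ → ℝ≥0) (hx : Summable x) (h1 : ∑' i, x i < 1) :
    Summable fun L : List ℕ => (L.map x).prod := by
  rw [← ENNReal.tsum_coe_ne_top_iff_summable]
  have h2 : ∀ L : List ℕ, (((L.map x).prod : ℝ≥0) : ℝ≥0∞) =
      (L.map fun i => ((x i : ℝ≥0) : ℝ≥0∞)).prod := by
    intro L
    induction L with
    | nil => simp
    | cons a L ih => rw [List.map_cons, List.prod_cons, List.map_cons, List.prod_cons,
        ENNReal.coe_mul, ih]
  rw [tsum_congr h2, tsum_list, ENNReal.tsum_geometric]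
  rw [← ENNReal.coe_tsum hx]
  have h3 : ((∑' i, x i : ℝ≥0) : ℝ≥0∞) < 1 := by exact_mod_cast h1
  exact ENNReal.inv_ne_top.mpr (tsub_pos_iff_lt.mpr h3).ne'

theorem summable_list_real (x : ℕ → ℝ) (h0 : ∀ i, 0 ≤ x i) (hx : Summable x)
    (h1 : ∑' i, x i < 1) : Summable fun L : List ℕ => (L.map x).prod := by
  let y : ℕ → ℝ≥0 := fun i => ⟨x i, h0 i⟩
  have hy : Summable y := by rw [← NNReal.summable_coe]; exact hx
  have hy1 : ∑' i, y i < 1 := by
    rw [← NNReal.coe_lt_coe, NNReal.coe_tsum]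
    exact h1
  have h2 := summable_list y hy hy1
  rw [← NNReal.summable_coe] at h2
  refine h2.congr fun L => ?_
  induction L with
  | nil => simp
  | cons a L ih =>
    rw [List.map_cons, List.prod_cons, List.map_cons, List.prod_cons, NNReal.coe_mul, ih]
    rfl

/-! ### The numbers -/

/-- The base. -/
noncomputable def s : ℝ := 9331 / 10000

/-- The second degree of `Δ_i`. -/
def c (i : ℕ) : ℕ := if i ≤ 2 then 2 else 3

/-- First degree of a word. -/
def d1 (w : List ℕ × ℕ) : ℕ := (w.1.map fun i => i + 1).sum + w.2 + 1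

/-- Second degree of a word. -/
def d2 (w : List ℕ × ℕ) : ℕ := (w.1.map c).sum + 1

/-- The degree of a word. -/
def dd (w : List ℕ × ℕ) : ℕ := max (d1 w) (d2 w)

theorem s_pos : 0 < s := by unfold s; norm_num

theorem s_lt_one : s < 1 := by unfold s; norm_num

theorem half_lt : 1 / 2 < s ^ 10 := by unfold s; norm_num

theorem pow_lt_one' : s ^ 10 < 1 := pow_lt_one₀ s_pos.le s_lt_one (by norm_num)

theorem one_le_dd (w : List ℕ × ℕ) : 1 ≤ dd w := by
  unfold dd d1; omega

theorem g_eq (i : ℕ) : s ^ (9 * (i + 1) + c i) =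
    (if i = 0 then s ^ 11 else 0) + (if i = 1 then s ^ 20 else 0) +
    (if i = 2 then s ^ 29 else 0) + (if 3 ≤ i then s ^ 39 * (s ^ 9) ^ (i - 3) else 0) := by
  rcases Nat.lt_or_ge i 3 with h | h
  · interval_cases i <;> norm_num [c]
  · have h2 : c i = 3 := by unfold c; rw [if_neg (by omega)]
    rw [if_neg (by omega), if_neg (by omega), if_neg (by omega), if_pos h, h2, ← pow_mul,
      ← pow_add, zero_add, zero_add, zero_add]
    congr 1
    omega

theorem hasSum_g : HasSum (fun i : ℕ => s ^ (9 * (i + 1) + c i))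
    (s ^ 11 + s ^ 20 + s ^ 29 + s ^ 39 / (1 - s ^ 9)) := by
  have h9 : s ^ 9 < 1 := pow_lt_one₀ s_pos.le s_lt_one (by norm_num)
  have h9' : 0 ≤ s ^ 9 := (pow_pos s_pos 9).le
  have e : (fun i : ℕ => s ^ (9 * (i + 1) + c i)) = fun i =>
    (if i = 0 then s ^ 11 else 0) + (if i = 1 then s ^ 20 else 0) +
    (if i = 2 then s ^ 29 else 0) + (if 3 ≤ i then s ^ 39 * (s ^ 9) ^ (i - 3) else 0) :=
    funext g_eq
  rw [e]
  refine (((hasSum_ite_eq 0 (s ^ 11)).add (hasSum_ite_eq 1 (s ^ 20))).add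
    (hasSum_ite_eq 2 (s ^ 29))).add ?_
  have h1 : HasSum (fun j : ℕ => s ^ 39 * (s ^ 9) ^ j) (s ^ 39 / (1 - s ^ 9)) := by
    have := (hasSum_geometric_of_lt_one h9' h9).mul_left (s ^ 39)
    rwa [← div_eq_mul_inv] at this
  have hinj : Function.Injective (fun j : ℕ => j + 3) := fun a b h => by
    simpa using h
  rw [← hinj.hasSum_iff]
  · convert h1 using 1
    funext j
    simp
  · intro i hi
    rw [if_neg]
    intro h3
    exact hi ⟨i - 3, by simp; omega⟩

theorem g_lt : s ^ 11 + s ^ 20 + s ^ 29 + s ^ 39 / (1 - s ^ 9) < 1 := by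
  unfold s
  norm_num

/-- The weights are summable over all words. -/
theorem summable_words : Summable fun w : List ℕ × ℕ =>
    s ^ (10 + 9 * w.2 + (w.1.map fun i => 9 * (i + 1) + c i).sum) := by
  have h1 : Summable fun L : List ℕ => (L.map fun i => s ^ (9 * (i + 1) + c i)).prod :=
    summable_list_real _ (fun i => (pow_pos s_pos _).le) hasSum_g.summable
      (by rw [hasSum_g.tsum_eq]; exact g_lt)
  have h9 : s ^ 9 < 1 := pow_lt_one₀ s_pos.le s_lt_one (by norm_num)
  have h2 : Summable fun j : ℕ => s ^ 10 * (s ^ 9) ^ j :=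
    (summable_geometric_of_lt_one (pow_pos s_pos 9).le h9).mul_left _
  have h3 := Summable.mul_of_nonneg h1 h2
    (fun L => List.prod_nonneg (by
      intro a ha
      obtain ⟨i, _, rfl⟩ := List.mem_map.mp ha
      exact (pow_pos s_pos _).le)) (fun j => (mul_pos (pow_pos s_pos _)
        (pow_pos (pow_pos s_pos _) _)).le)
  refine h3.congr fun w => ?_
  obtain ⟨L, j⟩ := w
  have h4 : (L.map fun i => s ^ (9 * (i + 1) + c i)).prod =
      s ^ (L.map fun i => 9 * (i + 1) + c i).sum := by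
    induction L with
    | nil => simp
    | cons a L ih =>
      rw [List.map_cons, List.prod_cons, ih, List.map_cons, List.sum_cons, ← pow_add]
  simp only
  rw [h4, ← pow_mul, ← pow_add, ← pow_add]
  congr 1
  omega

theorem dd_ge (w : List ℕ × ℕ) :
    10 + 9 * w.2 + (w.1.map fun i => 9 * (i + 1) + c i).sum ≤ 10 * dd w := by
  have h : (w.1.map fun i => 9 * (i + 1) + c i).sum =
      9 * (w.1.map fun i => i + 1).sum + (w.1.map c).sum := by
    induction w.1 with
    | nil => simp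
    | cons a L ih => simp only [List.map_cons, List.sum_cons, ih]; ring
  rw [h]
  have h1 : d1 w ≤ dd w := le_max_left _ _
  have h2 : d2 w ≤ dd w := le_max_right _ _
  unfold d1 at h1
  unfold d2 at h2
  omega

/-- **LA-N**: for `t = s^10 > 1/2` the series `∑ t^(degree)` over all words converges. -/
theorem summable_dd : Summable fun w : List ℕ × ℕ => (s ^ 10) ^ dd w := by
  refine Summable.of_nonneg_of_le (fun w => by have := s_pos; positivity) (fun w => ?_)
    summable_words
  rw [← pow_mul]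
  exact pow_le_pow_of_le_one s_pos.le s_lt_one.le (dd_ge w)

/-- More generally for any degree function which is at least both degrees. -/
theorem summable_of_le {d : List ℕ × ℕ → ℕ} (h1 : ∀ w, d1 w ≤ d w) (h2 : ∀ w, d2 w ≤ d w) :
    Summable fun w : List ℕ × ℕ => (s ^ 10) ^ d w := by
  refine Summable.of_nonneg_of_le (fun w => by have := s_pos; positivity) (fun w => ?_)
    summable_dd
  have h3 : 0 ≤ s ^ 10 := (pow_pos s_pos 10).le
  exact pow_le_pow_of_le_one h3 pow_lt_one'.le (max_le (h1 w) (h2 w))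

/-- The existence form. -/
theorem exists_rate : ∃ t : ℝ, 1 / 2 < t ∧ t < 1 ∧
    Summable fun w : List ℕ × ℕ => t ^ dd w :=
  ⟨s ^ 10, half_lt, pow_lt_one', summable_dd⟩

end Vale.Agent.P300.LAN
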