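import Mathlib

/-!
# P300, block A: symmetrised products (R3)

`symProd w μ` is the sum of the products `w i₁ * ... * w i_q` over all distinct orderings of the
multiset `μ`.

* `pow_mem_span`: if `b ∈ span (range w) ⊔ M` (`M` a two-sided ideal) then
  `b ^ q ∈ span {symProd w μ : card μ = q} ⊔ M`.
* `symProd_mem`: degrees add up.
* `tendsto_sym`: `∑_{card μ = q} t^(degree μ) → 0` as `q → ∞`.
-/

namespace Vale.Agent.P300.R3

open Finset Submodule Filter

section Algebra

variable {k : Type*} [CommRing k] {R : Type*} [Ring R] [Algebra k R] {ι : Type*}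

/-- All words of length `q` with letters in `F`. -/
noncomputable def words [DecidableEq ι] (F : Finset ι) : ℕ → Finset (List ι)
  | 0 => {[]}
  | q + 1 => (F ×ˢ words F q).image fun p => p.1 :: p.2

theorem mem_words [DecidableEq ι] {F : Finset ι} {q : ℕ} {l : List ι} :
    l ∈ words F q ↔ l.length = q ∧ ∀ i ∈ l, i ∈ F := by
  induction q generalizing l with
  | zero =>
    rw [words, Finset.mem_singleton, List.length_eq_zero_iff]
    constructor
    · rintro rfl; simp
    · exact fun h => h.1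
  | succ q ih =>
    rw [words, Finset.mem_image]
    constructor
    · rintro ⟨⟨a, l'⟩, h, rfl⟩
      rw [Finset.mem_product] at h
      obtain ⟨h1, h2⟩ := ih.mp h.2
      refine ⟨by simp only [List.length_cons, h1], fun i hi => ?_⟩
      rcases List.mem_cons.mp hi with rfl | hi
      · exact h.1
      · exact h2 i hi
    · rintro ⟨h1, h2⟩
      cases l with
      | nil => simp at h1
      | cons a l' =>
        refine ⟨(a, l'), ?_, rfl⟩
        rw [Finset.mem_product]
        refine ⟨h2 a (List.mem_cons_self ..), ih.mpr ⟨by simpa using h1, fun i hi => h2 i ?_⟩⟩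
        exact List.mem_cons_of_mem _ hi

theorem sum_pow_words [DecidableEq ι] (F : Finset ι) (y : ι → R) (q : ℕ) :
    (∑ i ∈ F, y i) ^ q = ∑ l ∈ words F q, (l.map y).prod := by
  induction q with
  | zero => simp [words]
  | succ q ih =>
    rw [pow_succ', ih, words, Finset.sum_image, Finset.sum_product, Finset.sum_mul]
    · refine Finset.sum_congr rfl fun i _ => ?_
      rw [Finset.mul_sum]
      exact Finset.sum_congr rfl fun l _ => by rw [List.map_cons, List.prod_cons]
    · rintro ⟨a, l⟩ _ ⟨b, l'⟩ _ h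
      have h' : a :: l = b :: l' := h
      rw [List.cons.injEq] at h'
      rw [Prod.mk.injEq]
      exact h'

/-- All distinct orderings of a multiset. -/
noncomputable def orderings [DecidableEq ι] (μ : Multiset ι) : Finset (List ι) :=
  μ.lists.toFinset

theorem mem_orderings [DecidableEq ι] {μ : Multiset ι} {l : List ι} :
    l ∈ orderings μ ↔ μ = (l : Multiset ι) := by
  rw [orderings, Multiset.mem_toFinset, Multiset.mem_lists_iff]
  rfl

/-- The symmetrised product over a multiset. -/
noncomputable def symProd [DecidableEq ι] (w : ι → R) (μ : Multiset ι) : R :=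
  ∑ l ∈ orderings μ, (l.map w).prod

theorem prod_smul_list (c : ι → k) (w : ι → R) (l : List ι) :
    (l.map fun i => c i • w i).prod = (l.map c).prod • (l.map w).prod := by
  induction l with
  | nil => simp
  | cons a l ih => rw [List.map_cons, List.prod_cons, ih, List.map_cons, List.prod_cons,
      List.map_cons, List.prod_cons, smul_mul_smul_comm]

theorem sum_pow_mem [DecidableEq ι] (F : Finset ι) (c : ι → k) (w : ι → R) (q : ℕ) :
    (∑ i ∈ F, c i • w i) ^ q ∈ span k (Set.range fun μ : Sym ι q => symProd w (μ : Multiset ι)) := by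
  rw [sum_pow_words]
  have h1 : ∀ l ∈ words F q, (l : Multiset ι) ∈
      (words F q).image (fun l : List ι => (l : Multiset ι)) :=
    fun l hl => Finset.mem_image_of_mem _ hl
  rw [← Finset.sum_fiberwise_of_maps_to h1]
  refine sum_mem fun μ hμ => ?_
  obtain ⟨l0, hl0, rfl⟩ := Finset.mem_image.mp hμ
  have hl0' := mem_words.mp hl0
  have h2 : (words F q).filter (fun l : List ι => (l : Multiset ι) = (l0 : Multiset ι)) =
      orderings (l0 : Multiset ι) := by
    ext l
    rw [Finset.mem_filter, mem_orderings]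
    constructor
    · rintro ⟨_, h⟩; exact h.symm
    · intro h
      have hp : l0.Perm l := Multiset.coe_eq_coe.mp h
      refine ⟨mem_words.mpr ⟨hp.length_eq.symm.trans hl0'.1, fun i hi => hl0'.2 i ?_⟩, h.symm⟩
      exact hp.symm.subset hi
  rw [h2]
  have h3 : ∑ l ∈ orderings (l0 : Multiset ι), (l.map fun i => c i • w i).prod =
      ((l0 : Multiset ι).map c).prod • symProd w (l0 : Multiset ι) := by
    rw [symProd, Finset.smul_sum]
    refine Finset.sum_congr rfl fun l hl => ?_
    rw [mem_orderings] at hl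
    rw [prod_smul_list, hl, Multiset.map_coe, Multiset.prod_coe]
  rw [h3]
  refine smul_mem _ _ (subset_span ⟨⟨(l0 : Multiset ι), ?_⟩, rfl⟩)
  rw [Multiset.coe_card]
  exact hl0'.1

/-- Powers modulo a two-sided ideal. -/
theorem pow_sub_pow_mem {M : Submodule k R} (hl : ∀ a x : R, x ∈ M → a * x ∈ M)
    (hr : ∀ a x : R, x ∈ M → x * a ∈ M) {a b : R} (h : a - b ∈ M) (q : ℕ) :
    a ^ q - b ^ q ∈ M := by
  induction q with
  | zero => simp
  | succ q ih =>
    have e : a ^ (q + 1) - b ^ (q + 1) = a ^ q * (a - b) + (a ^ q - b ^ q) * b := by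
      rw [pow_succ, pow_succ, mul_sub, sub_mul]; abel
    rw [e]
    exact add_mem (hl _ _ h) (hr _ _ ih)

/-- **R3, membership.** -/
theorem pow_mem_span [DecidableEq ι] {M : Submodule k R} (hl : ∀ a x : R, x ∈ M → a * x ∈ M)
    (hr : ∀ a x : R, x ∈ M → x * a ∈ M) (w : ι → R) {b : R}
    (hb : b ∈ span k (Set.range w) ⊔ M) (q : ℕ) :
    b ^ q ∈ span k (Set.range fun μ : Sym ι q => symProd w (μ : Multiset ι)) ⊔ M := by
  obtain ⟨y, hy, z, hz, rfl⟩ := mem_sup.mp hb
  obtain ⟨c, rfl⟩ := (Finsupp.mem_span_range_iff_exists_finsupp).mp hy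
  have h1 : (c.sum fun i a => a • w i) ^ q ∈
      span k (Set.range fun μ : Sym ι q => symProd w (μ : Multiset ι)) :=
    sum_pow_mem c.support c w q
  have h2 := pow_sub_pow_mem hl hr (a := (c.sum fun i a => a • w i) + z)
    (b := c.sum fun i a => a • w i) (by rw [add_sub_cancel_left]; exact hz) q
  refine mem_sup.mpr ⟨_, h1, _, h2, ?_⟩
  rw [add_sub_cancel]

/-- **R3, degrees.** -/
theorem symProd_mem [DecidableEq ι] {I : ℕ → Submodule k R} (h0 : I 0 = ⊤)
    (hmul : ∀ {m n : ℕ} {a b : R}, a ∈ I m → b ∈ I n → a * b ∈ I (m + n))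
    {w : ι → R} {d : ι → ℕ} (hw : ∀ i, w i ∈ I (d i)) (μ : Multiset ι) :
    symProd w μ ∈ I (μ.map d).sum := by
  refine Submodule.sum_mem _ fun l hl => ?_
  rw [mem_orderings] at hl
  subst hl
  rw [Multiset.map_coe, Multiset.sum_coe]
  induction l with
  | nil => rw [List.map_nil, List.map_nil, List.sum_nil, h0]; trivial
  | cons a l ih =>
    have h1 := hmul (hw a) ih
    simpa only [List.map_cons, List.prod_cons, List.sum_cons] using h1

/-- In characteristic `p`: `(u - 1)^(p^n) = u^(p^n) - 1`. -/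
theorem sub_one_pow (p : ℕ) [Fact p.Prime] [CharP R p] (u : R) (n : ℕ) :
    (u - 1) ^ p ^ n = u ^ p ^ n - 1 := by
  rw [sub_pow_char_pow_of_commute _ _ (Commute.one_right u), one_pow]

/-- **R3 for a relator**: if `u - 1 ∈ span (range w) ⊔ M` then
`u ^ (p^n) - 1 ∈ span {symProd w μ : card μ = p^n} ⊔ M`. -/
theorem relator_mem_span [DecidableEq ι] (p : ℕ) [Fact p.Prime] [CharP R p] {M : Submodule k R}
    (hl : ∀ a x : R, x ∈ M → a * x ∈ M) (hr : ∀ a x : R, x ∈ M → x * a ∈ M) (w : ι → R) {u : R}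
    (hb : u - 1 ∈ span k (Set.range w) ⊔ M) (n : ℕ) :
    u ^ p ^ n - 1 ∈
      span k (Set.range fun μ : Sym ι (p ^ n) => symProd w (μ : Multiset ι)) ⊔ M := by
  rw [← sub_one_pow p]
  exact pow_mem_span hl hr w hb _

end Algebra

/-! ### The weights -/

section Weights

variable {ι : Type*}

theorem prod_pow_count [DecidableEq ι] (x : ι → ℝ) (F : Finset ι) (μ : Multiset ι)
    (h : μ.toFinset ⊆ F) : (μ.map x).prod = ∏ i ∈ F, x i ^ μ.count i := by
  rw [Finset.prod_multiset_map_count]
  refine Finset.prod_subset h fun i _ hi => ?_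
  rw [Multiset.mem_toFinset] at hi
  rw [Multiset.count_eq_zero_of_notMem hi, pow_zero]

theorem inv_one_sub_le {x t : ℝ} (h0 : 0 ≤ x) (hx : x ≤ t) (ht : t < 1) :
    (1 - x)⁻¹ ≤ Real.exp (x / (1 - t)) := by
  have h1 : 0 < 1 - x := by linarith
  have h2 : 0 < 1 - t := by linarith
  have h3 : x / (1 - x) + 1 ≤ Real.exp (x / (1 - x)) := Real.add_one_le_exp _
  have h4 : x / (1 - x) + 1 = (1 - x)⁻¹ := by
    field_simp
    ring
  rw [← h4]
  refine h3.trans (Real.exp_le_exp.mpr ?_)
  exact div_le_div_of_nonneg_left h0 h2 (by linarith)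

/-- All finite sums of monomials are bounded. -/
theorem sum_multiset_le (x : ι → ℝ) (t : ℝ) (ht : t < 1) (h0 : ∀ i, 0 ≤ x i)
    (hxt : ∀ i, x i ≤ t) (hx : Summable x) (S : Finset (Multiset ι)) :
    ∑ μ ∈ S, (μ.map x).prod ≤ Real.exp ((∑' i, x i) / (1 - t)) := by
  classical
  set F : Finset ι := S.sup Multiset.toFinset with hF
  set n : ℕ := (S.sup Multiset.card) + 1 with hn
  have hsub : ∀ μ ∈ S, μ.toFinset ⊆ F := fun μ hμ => Finset.le_sup (f := Multiset.toFinset) hμ
  have hcard : ∀ μ ∈ S, Multiset.card μ < n := fun μ hμ =>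
    Nat.lt_succ_of_le (Finset.le_sup (f := Multiset.card) hμ)
  let φ : Multiset ι → (F → ℕ) := fun μ i => μ.count (i : ι)
  have hinj : Set.InjOn φ (S : Set (Multiset ι)) := by
    intro μ hμ ν hν h
    ext i
    by_cases hi : i ∈ F
    · exact congrFun h ⟨i, hi⟩
    · rw [Multiset.count_eq_zero_of_notMem, Multiset.count_eq_zero_of_notMem]
      · intro h1; exact hi (hsub ν hν (Multiset.mem_toFinset.mpr h1))
      · intro h1; exact hi (hsub μ hμ (Multiset.mem_toFinset.mpr h1))
  have h1 : ∑ μ ∈ S, (μ.map x).prod = ∑ f ∈ S.image φ, ∏ i : F, x i ^ f i := by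
    rw [Finset.sum_image hinj]
    refine Finset.sum_congr rfl fun μ hμ => ?_
    rw [prod_pow_count x F μ (hsub μ hμ), ← Finset.prod_coe_sort]
  have h2 : S.image φ ⊆ Fintype.piFinset fun _ : F => Finset.range n := by
    intro f hf
    obtain ⟨μ, hμ, rfl⟩ := Finset.mem_image.mp hf
    rw [Fintype.mem_piFinset]
    intro i
    rw [Finset.mem_range]
    exact lt_of_le_of_lt (Multiset.count_le_card _ _) (hcard μ hμ)
  have h3 : ∑ f ∈ S.image φ, ∏ i : F, x i ^ f i ≤
      ∑ f ∈ Fintype.piFinset fun _ : F => Finset.range n, ∏ i : F, x i ^ f i :=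
    Finset.sum_le_sum_of_subset_of_nonneg h2 fun f _ _ =>
      Finset.prod_nonneg fun i _ => pow_nonneg (h0 _) _
  have h4 : ∑ f ∈ Fintype.piFinset fun _ : F => Finset.range n, ∏ i : F, x i ^ f i =
      ∏ i : F, ∑ j ∈ Finset.range n, x i ^ j := by
    rw [Finset.prod_univ_sum]
  have h5 : ∏ i : F, ∑ j ∈ Finset.range n, x i ^ j ≤ ∏ i : F, Real.exp (x i / (1 - t)) := by
    refine Finset.prod_le_prod (fun i _ => Finset.sum_nonneg fun j _ => pow_nonneg (h0 _) _)
      fun i _ => ?_
    refine le_trans ?_ (inv_one_sub_le (h0 i) (hxt i) ht)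
    have h6 : x i < 1 := lt_of_le_of_lt (hxt i) ht
    rw [← tsum_geometric_of_lt_one (h0 i) h6]
    exact (summable_geometric_of_lt_one (h0 i) h6).sum_le_tsum _ fun j _ => pow_nonneg (h0 _) _
  rw [h1]
  refine (h3.trans (h4.le.trans h5)).trans ?_
  rw [← Real.exp_sum]
  refine Real.exp_le_exp.mpr ?_
  rw [← Finset.sum_div]
  refine div_le_div_of_nonneg_right ?_ (by linarith)
  rw [Finset.sum_coe_sort F x]
  exact hx.sum_le_tsum _ fun i _ => h0 i

theorem summable_multiset (x : ι → ℝ) (t : ℝ) (ht : t < 1) (h0 : ∀ i, 0 ≤ x i)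
    (hxt : ∀ i, x i ≤ t) (hx : Summable x) :
    Summable fun μ : Multiset ι => (μ.map x).prod :=
  summable_of_sum_le (fun μ => Multiset.prod_nonneg (by
    intro a ha
    obtain ⟨i, _, rfl⟩ := Multiset.mem_map.mp ha
    exact h0 i)) (sum_multiset_le x t ht h0 hxt hx)

theorem map_pow_prod (t : ℝ) (d : ι → ℕ) (μ : Multiset ι) :
    (μ.map fun i => t ^ d i).prod = t ^ (μ.map d).sum := by
  induction μ using Multiset.induction_on with
  | empty => simp
  | cons a μ ih => rw [Multiset.map_cons, Multiset.prod_cons, ih, Multiset.map_cons,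
      Multiset.sum_cons, pow_add]

/-- The weights of all multisets are summable. -/
theorem summable_weights {t : ℝ} (ht0 : 0 < t) (ht1 : t < 1) {d : ι → ℕ} (hd : ∀ i, 1 ≤ d i)
    (hs : Summable fun i => t ^ d i) :
    Summable fun μ : Multiset ι => t ^ (μ.map d).sum := by
  refine (summable_multiset (fun i => t ^ d i) t ht1 (fun i => (pow_pos ht0 _).le)
    (fun i => ?_) hs).congr fun μ => map_pow_prod t d μ
  exact (pow_le_pow_of_le_one ht0.le ht1.le (hd i)).trans (pow_one t).le

/-- The sigma decomposition of multisets by cardinality. -/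
def symEquiv (ι : Type*) : (Σ q : ℕ, Sym ι q) ≃ Multiset ι :=
  Equiv.sigmaFiberEquiv (fun μ : Multiset ι => Multiset.card μ)

theorem symEquiv_apply (q : ℕ) (μ : Sym ι q) : symEquiv ι ⟨q, μ⟩ = (μ : Multiset ι) := rfl

/-- For every `q`. -/
theorem summable_sym {t : ℝ} (ht0 : 0 < t) (ht1 : t < 1) {d : ι → ℕ} (hd : ∀ i, 1 ≤ d i)
    (hs : Summable fun i => t ^ d i) (q : ℕ) :
    Summable fun μ : Sym ι q => t ^ ((μ : Multiset ι).map d).sum := by
  have h := summable_weights ht0 ht1 hd hs
  have h1 := h.comp_injective (i := fun μ : Sym ι q => (μ : Multiset ι)) Subtype.val_injective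
  exact h1

/-- **R3, numerical part**: the mass of the symmetrised products of length `q` tends to `0`. -/
theorem tendsto_sym {t : ℝ} (ht0 : 0 < t) (ht1 : t < 1) {d : ι → ℕ} (hd : ∀ i, 1 ≤ d i)
    (hs : Summable fun i => t ^ d i) :
    Tendsto (fun q : ℕ => ∑' μ : Sym ι q, t ^ ((μ : Multiset ι).map d).sum) atTop (nhds 0) := by
  have h := summable_weights ht0 ht1 hd hs
  have h1 : Summable ((fun μ : Multiset ι => t ^ (μ.map d).sum) ∘ symEquiv ι) :=
    (symEquiv ι).summable_iff.mpr h
  have h2 := h1.sigma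
  exact h2.tendsto_atTop_zero

/-- The degree of a multiset of size `q` is at least `q`. -/
theorem le_degree {d : ι → ℕ} (hd : ∀ i, 1 ≤ d i) (q : ℕ) (μ : Sym ι q) :
    q ≤ ((μ : Multiset ι).map d).sum := by
  obtain ⟨μ, rfl⟩ := μ
  change Multiset.card μ ≤ (μ.map d).sum
  induction μ using Multiset.induction_on with
  | empty => simp
  | cons a μ ih =>
    rw [Multiset.card_cons, Multiset.map_cons, Multiset.sum_cons]
    have := hd a
    omega

end Weights

end Vale.Agent.P300.R3
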