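import Vale.Agent.P300.H746.Sym

/-!
# P300, block A: R3 in the form used by the Golod-Shafarevich assembly
-/

namespace Vale.Agent.P300.R3

open Finset Submodule Filter

/-- **R3**: for a family `w k ∈ I (d k)` with `∑ t^(d k) < ∞` and all large `q` there is a family
`s` of total mass `< ε` whose closed span contains all `q`-th powers of elements of the closed
span of `w`. -/
theorem sym_family {F : Type*} [CommRing F] {R : Type*} [Ring R] [Algebra F R]
    {I : ℕ → Submodule F R} (h0 : I 0 = ⊤)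
    (hmul : ∀ {m n : ℕ} {a b : R}, a ∈ I m → b ∈ I n → a * b ∈ I (m + n))
    {κ : Type} {w : κ → R} {d : κ → ℕ} (hw : ∀ k, w k ∈ I (d k)) (hd : ∀ k, 1 ≤ d k) {t : ℝ}
    (ht0 : 0 < t) (ht1 : t < 1) (hs : Summable fun k => t ^ d k) {ε : ℝ} (hε : 0 < ε) :
    ∃ q₀ : ℕ, ∀ q ≥ q₀, ∃ (κ' : Type) (s : κ' → R) (e : κ' → ℕ), (∀ k, s k ∈ I (e k)) ∧
      (∀ k, 1 ≤ e k) ∧ (Summable fun k => t ^ e k) ∧ ∑' k, t ^ e k < ε ∧
      ∀ b, (∀ N, b ∈ span F (Set.range w) ⊔ I N) →
        ∀ N, b ^ q ∈ span F (Set.range s) ⊔ I N := by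
  classical
  have hl : ∀ (N : ℕ) (a x : R), x ∈ I N → a * x ∈ I N := by
    intro N a x hx
    have h : a ∈ I 0 := by rw [h0]; trivial
    have h2 := hmul h hx
    rwa [zero_add] at h2
  have hr : ∀ (N : ℕ) (a x : R), x ∈ I N → x * a ∈ I N := by
    intro N a x hx
    have h : a ∈ I 0 := by rw [h0]; trivial
    exact hmul hx h
  have h1 := (tendsto_sym ht0 ht1 hd hs).eventually (gt_mem_nhds hε)
  obtain ⟨q₀, hq₀⟩ := eventually_atTop.mp h1
  refine ⟨max q₀ 1, fun q hq => ⟨Sym κ q, fun μ => symProd w (μ : Multiset κ),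
    fun μ => ((μ : Multiset κ).map d).sum, fun μ => symProd_mem h0 hmul hw _, fun μ => ?_,
    summable_sym ht0 ht1 hd hs q, hq₀ q ((le_max_left _ _).trans hq), fun b hb N => ?_⟩⟩
  · exact ((le_max_right _ _).trans hq).trans (le_degree hd q μ)
  · exact pow_mem_span (hl N) (hr N) w (hb N) q

end Vale.Agent.P300.R3
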